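import Crest.Agent.X212.Pnt66.Core
import Crest.Agent.X212.Pte3.Bas
import Crest.Agent.X212.An.Str

/-! X212/Pnt66/Ex (helper66): P-PNT, charts with moving ends exist at the solutions of a part. -/

set_option autoImplicit false
set_option linter.unusedSectionVars false
noncomputable section
open scoped Manifold ContDiff Topology InnerProductSpace
open MeasureTheory Set Function Filter

namespace Crest.Agent.X212.Pnt66
open An M Nd18 Mod61 Nk89 Cht98 Rf65 Pte3 Rdc90 Eqv71 Pj41 Hol14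
open An.Job (SolOn)

section cyl
variable {E3 : Type} [NormedAddCommGroup E3] [NormedSpace ℝ E3] [FiniteDimensional ℝ E3]
  [MeasurableSpace E3] [BorelSpace E3]
  {H3 : Type} [TopologicalSpace H3] {I3 : ModelWithCorners ℝ E3 H3} [I3.Boundaryless]
  {Y : Type} [TopologicalSpace Y] [ChartedSpace H3 Y] [IsManifold I3 ∞ Y] [T2Space Y]
  [MeasurableSpace Y] [BorelSpace Y] [SecondCountableTopology Y] [CompactSpace Y]
  {κ : Type} [Fintype κ] {lam : Type} [Fintype lam] {D : YD I3 Y κ lam} {β β' : YC Y κ lam}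

open Classical in
variable (D β) in
/-- a non-zero harmonic form, if there is one -/
def hF : κ → Y → β.m.A := if h : ∃ η, Har D β η ∧ η ≠ 0 then h.choose else 0

theorem fo_hF : Fo D β (hF D β) := by
  unfold hF; split_ifs with h
  exacts [h.choose_spec.1.toFo, fo_zero]

theorem har_hF (h : dh D β ≠ 0) : Har D β (hF D β) ∧ hF D β ≠ 0 := by
  have : ∃ η, Har D β η ∧ η ≠ 0 := by_contra fun k => h (by
    rw [dh, (Submodule.span_eq_bot (s := {η | Har D β η})).2 fun η hη => by_contra fun e =>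
      k ⟨η, hη, e⟩, finrank_bot])
  rw [hF, dif_pos this]
  exact this.choose_spec

theorem eqv_refl (hD : D.OK) (h : D.Adm β) : D.Eqv β β :=
  isoOn_refl hD.B hD.G isOpen_univ (ad0 h.adm)

theorem eqv_symm (hD : D.OK) (h : D.Adm β) (h' : D.Adm β') (e : D.Eqv β β') : D.Eqv β' β :=
  IsoOn.symm hD.B hD.G isOpen_univ (ad0 h.adm) (ad0 h'.adm) e

theorem eqOn_one {v : Y × ℝ → CL β.m.V β'.m.V} {ζ : Circle} (h : ∀ y, β.Φ y = 0)
    (e : EqOn D.B D.Z univ (cy β) (cy β') v ζ) : EqOn D.B D.Z univ (cy β) (cy β') v 1 :=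
  have k : ∀ x, v x ((cy β).Φ x) = 0 := fun x => (congrArg (v x) (h x.1)).trans (map_zero _)
  ⟨e.m, e.W, fun x hx => (e.Φ x hx).trans (((congrArg _ (k x)).trans (cs_zero _ _)).trans
    ((congrArg _ (k x)).trans (cs_zero _ _)).symm), Subsingleton.elim _ _⟩

end cyl

variable {Wi : Type} {X : Mf 4} {A κ lam : Type} [Fintype A] [Fintype κ] [Fintype lam]
  [DecidableEq lam] {M : Mark X A κ} {W : World M} {N : ML M lam} {Λ : Lns W N}
  {A' h : Type} [Fintype A'] [DecidableEq A'] [Fintype h] {r n : ℕ}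
  {J : Job Wi Λ A' h r n} {c : M.Cl} {σ : Cel A'} {p : Prt A A' h} {U : Type} [Fintype U] {δ : ℝ}

theorem exists_cut {Z : Mf 4} {ι : Type} [Fintype ι] {B : Base Z.M ι lam} (hB : B.OK Z.I)
    {m m' : Md Z.M ι lam} (hm : m.OK Z.I B) (hm' : m'.OK Z.I B) {w : Z.M → CL m.V m'.V}
    (e : Iso0 Z.I m m' univ w) (k : Cut Z.M lam) (ψ : k.H B m) : ∃ ψ', k.Eqv k B B w ψ ψ' :=
  have b := e.mEq (OK.on hm _) (OK.on hm' _)
  have b' : ME m k.x0 m' k.x0 (fun b a => B.P b a k.x0) (B.l k.x0) (w k.x0) :=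
    ⟨b.uu _ trivial, b.uu' _ trivial, b.J _ trivial, b.ρ _ trivial, b.j _ trivial⟩
  ⟨Cnt93.Rh k k B B w 1 ψ, 1, (it_cs ⟨cp_pp hB hm _, cp_pp hB hm' _, b'.J, ContinuousLinearMap.ext
    fun v => (b'.pp (BE.refl hB _) hB hB hm v).symm⟩ (1 : Circle)).rH_coe ψ⟩

/-- the coordinate of a limit -/
def lmL (p : Prt A A' h) (o : Option U) : Tq p U →L[ℝ] ℝ :=
  o.elim 0 fun u => ContinuousLinearMap.proj u ∘L ContinuousLinearMap.snd ℝ _ _

theorem lmL_apply (o : Option U) (t : Tq p U) : lmL p o t = o.elim 0 t.2 := by cases o <;> rfl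

/-- **charts with prescribed limits `β`** -/
theorem exists_ec (H : PG J c σ p) (d0 : 0 < δ) (d1 : δ ≤ dl0) (μ : Ed c → Option U)
    (y : J.Obc c) (b : Bp J c) (hb : b.s = y.s) (ad : Adm0 y.x (J.B c) (J.G c y.s))
    (off : ∀ x ∉ W.un c p.P', y.x.Φ x = 0) (β : ∀ i : Ed c, YC (J.xs i.1).Y.M κ (lam ⊕ lam))
    (η : ∀ i, κ → (J.xs i.1).Y.M → (β i).m.A)
    (hβ : ∀ i ∈ EdP c p.P, (J.xs i.1).D.Adm (β i) ∧ Fo (J.xs i.1).D (β i) (η i) ∧
      (∀ z, (β i).Φ z = 0) ∧ ∃ ζ, ∃ d > δ, (J.K c i.1 (some i.2) (J.Θ b.s)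
        ⟨i.1.2.2, b.br, b.O, i.1.2.1⟩).ELim d y.x (β i) ζ (dr i.2))
    (har : ∀ i ∈ EdP c p.P, μ i ≠ none →
      Bs (J.xs i.1).D (β i) ∧ Har (J.xs i.1).D (β i) (η i) ∧ η i ≠ 0) :
    ∃ (o : Ref (b.F p U δ)) (R : ℝ) (v : ∀ i : Ed c, (J.xs i.1).Y.M × ℝ → CL (β i).m.V o.m.V)
      (x : Pnt o r) (ψ : (⟨o, R, β, η, μ, v⟩ : EC b p U δ).K), (⟨o, R, β, η, μ, v⟩ : EC b p U δ).OK ∧
      o.Φ0 = 0 ∧ x.t.2 = 0 ∧ (⟨o, R, β, η, μ, v⟩ : EC b p U δ).RepC y x ψ := by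
  let t : Tq p U := (fun a => y.s a, 0)
  have e : b.θ p U t = y.s := funext fun a => by
    unfold Bp.θ; split_ifs
    exacts [rfl, congrFun hb a]
  have ac := fun i => H.act_iff (U := U) (b := b) d0 d1 (i := i)
  choose! ζ hζ using fun i hi => (hβ i hi).2.2.2
  obtain ⟨o, R, x, w, k1, k2, k3, k4, k5, -, k6⟩ := pnt (H.ends U b d0 d1) (t := t) (c := y.x)
    (β := β) (η := η) (l := fun i => lmL p (μ i)) (ζ := ζ)
    (show J.Θ (b.θ p U t) ∈ M.O c.1 from e ▸ hb ▸ b.O)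
    (show Adm0 y.x (J.B c) (J.G c (b.θ p U t)) from e ▸ ad) off fun (i : Ed c) hi => by
      have k := hβ i ((ac i).1 hi)
      have k' : bh (β i) (lmL p (μ i) t • η i) 0 = β i := by
        rw [show lmL p (μ i) t = 0 by rw [lmL_apply]; cases μ i <;> rfl, zero_smul, Rd78.bh_zero]
      have k'' : ((H.ends U b d0 d1).P i).l = dr i.2 := by obtain ⟨_, _ | _⟩ := i <;> rfl
      exact ⟨k.1, k.2.1, k'.symm ▸ k''.symm ▸ hζ i ((ac i).1 hi)⟩
  choose! v hv using k6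
  choose ψ hψ using fun i : p.H => exists_cut (Λ.B_ok J.m c) ad.ok o.ok k3 (J.cut c i) (y.ψ i)
  refine ⟨o, R, v, x, ψ, ⟨d0, d1, k1.le, k1.lit, har, fun i hi t' ht' => ?_⟩,
    k5 fun i hi => (hβ i ((ac i).1 hi)).2.2.1, by rw [k2], fun a => by rw [k2], w, 1, ?_, hψ⟩
  · have := hv i ((ac i).2 hi) t' ht'
    rw [lmL_apply] at this
    exact eqOn_one (fun z => (add_zero _).trans ((hβ i hi).2.2.1 z)) this
  · rw [k2]; exact k4

/-- **P-PNT** -/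
theorem exP (hD : DecP J c) : ExP J c := by
  classical
  intro hJ hc
  obtain ⟨δ₁, h1, hD⟩ := hD hJ hc
  refine ⟨min δ₁ dl0, lt_min h1 dl0_pos, fun δ₀ h0 σ p U _ μ hP q y _ hy => ?_⟩
  obtain ⟨go, hl⟩ := hD δ₀ ⟨h0.1, h0.2.trans (min_le_left _ _)⟩ σ p U μ hP q y hy.toSolOn
  have H : PG J c σ p := ⟨hP.ok, hP.mem, hP.pok⟩
  have hY := fun a => (hP.ok.xs a).1.yd
  let s : Ed c → Bool := fun i =>
    if μ (i.1, false) = μ (i.1, true) ∧ μ (i.1, false) ≠ none then false else i.2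
  have hs : ∀ i ∈ EdP c p.P, Bs (J.xs i.1).D (y.β i.1 (s i)) ∧
      (J.xs i.1).D.Eqv (y.β i.1 i.2) (y.β i.1 (s i)) ∧ (μ i ≠ none → μ (i.1, s i) ≠ none) := by
    intro i hi
    have k0 := (go.bs i hi).adm
    simp only [s]
    split_ifs with k
    · have k1 := go.bs (i.1, false) (by_contra fun e => k.2 (hP.mu.off _ e))
      refine ⟨k1, ?_, fun _ => k.2⟩
      obtain ⟨a, _ | _⟩ := i
      exacts [eqv_refl (hY _) k0, eqv_symm (hY _) k1.adm k0 (hy.mt a k.1 k.2)]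
    · exact ⟨go.bs i hi, eqv_refl (hY _) k0, id⟩
  obtain ⟨o, R, v, x, ψ, k1, k2, k3, k4⟩ := exists_ec (U := U) H h0.1 (h0.2.trans (min_le_right _ _))
    μ y ⟨y.s, go.br, go.O⟩ rfl ⟨hy.adm.ok, hy.adm.conn, hy.adm.sm, hy.adm.pos⟩ hy.off
    (fun i => y.β i.1 (s i)) (fun i => hF _ _) (fun i hi => by
      obtain ⟨j1, ⟨g, ξ, j2⟩, -⟩ := hs i hi
      have ha : Act J.m c i.1 (some i.2) (J.Θ y.s) := ⟨i.1.2.2, go.br, go.O, i.1.2.1⟩
      obtain ⟨d, j3, j4⟩ := hl i hi ha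
      exact ⟨j1.adm, fo_hF, j1.zr, _, d, j3, elim_post (J.K c i.1 (some i.2) _ ha) (hY _)
        (go.bs i hi).adm j1.adm j2 (admOn_pb _ (ad0 hy.adm) subset_rfl) j4⟩)
    fun i hi hμ => ⟨(hs i hi).1, har_hF (by
      rw [(hy.mv (i.1, s i) ((hs i hi).2.2 hμ)).1]; exact one_ne_zero)⟩
  refine ⟨_, _, _, x, ψ, rfl, ⟨⟨k1, rfl, ⟨⟨hy.cell.1, fun a _ => (hy.cell.2 a).2⟩, hy.inf⟩, k2,
    le_rfl, fun a e1 e2 t => ?_, fun i hi => (hs i hi).1⟩, rfl⟩, k4, fun i hi => ?_⟩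
  · have e : ∀ b, s (a, b) = false := fun b => if_pos ⟨e1, e2⟩
    have k := (go.bs (a, false) (by_contra fun e => e2 (hP.mu.off _ e))).adm
    have k' : ∀ b b', b = false → b' = false → ∀ l : ℝ, (J.xs a).D.Eqv
        (bh (y.β a b) (l • hF (J.xs a).D (y.β a b)) 0)
        (bh (y.β a b') (l • hF (J.xs a).D (y.β a b')) 0) := by
      rintro _ _ rfl rfl l; exact eqv_refl (hY _) (adm_mv k fo_hF _)
    simp only [EC.lim, EC.lm, ← e1]
    exact k' _ _ (e _) (e _) _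
  · rw [EC.lim, show EC.lm _ i x.t = 0 by rw [EC.lm, k3]; dsimp only; cases μ i <;> rfl, zero_smul, Rd78.bh_zero]
    exact (hs i hi).2.1

end Crest.Agent.X212.Pnt66
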