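import Crest.Agent.X212.End3.Pnt
import Crest.Agent.X212.Rd78.Bas
import Crest.Agent.X212.Tmp64.Cfg
import Crest.Agent.X212.Mp86.Wd

/-! X212/Pnt66/Tl (helper66): change of the limit along an equivalence, freezing of an end. -/

set_option autoImplicit false
set_option linter.unusedSectionVars false
noncomputable section
open scoped Manifold ContDiff Topology InnerProductSpace
open MeasureTheory Set Function Filter Real

namespace Crest.Agent.X212.Pnt66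
open An An.Pre Sob92 Mod61 Nd18 Cyf70 Nk89 Pj41 Eqv71 End3 Rdc90 Bki64 Neck67
open Grp76 (Nice)
open Tmp64 (AdmOn admOn_univ sqC sqM frz)
open Wz78 (mem_g g_skw g_p g_J g_ρ g_j)

variable {E : Type} [NormedAddCommGroup E] [NormedSpace ℝ E] [FiniteDimensional ℝ E]
  [MeasurableSpace E] [BorelSpace E]
  {HM : Type} [TopologicalSpace HM] {I : ModelWithCorners ℝ E HM} [I.Boundaryless]
  {M : Type} [TopologicalSpace M] [ChartedSpace HM M] [IsManifold I ∞ M]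
  [MeasurableSpace M] [T2Space M] [BorelSpace M] [SecondCountableTopology M]
  {ι κ : Type} [Fintype ι] [Fintype κ] {lam : Type} [Fintype lam]
  {T : Type} [NormedAddCommGroup T] [NormedSpace ℝ T] {r r' r'' : ℕ}
  {N : Type} [NormedAddCommGroup N] [NormedSpace ℝ N]

section gen

theorem cj_mul {a b : Type} [Fintype a] [Fintype b] {i : CL (Eu a) (Eu b)} (hi : ad i ∘L i = 1)
    (A C : En a) : cjL i A * cjL i C = cjL i (A * C) := by
  have ii : ∀ v, ad i (i v) = v := fun v => DFunLike.congr_fun hi v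
  ext1 v
  simp only [cjL_apply, ContinuousLinearMap.comp_apply, mul_apply_eq_comp, ii]

/-- conjugation of endomorphisms -/
def cA {a b : ℕ} (i : CL (Eu (Fin a)) (Eu (Fin b))) : CL (HS (Fin a)) (HS (Fin b)) :=
  hsL ∘L cjL i ∘L opL

theorem opL_cA {a b : ℕ} (i : CL (Eu (Fin a)) (Eu (Fin b))) (ξ : HS (Fin a)) :
    opL (cA i ξ) = cjL i (opL ξ) := opL_hsL _

theorem lit_g {Z Z' : Type} [TopologicalSpace Z] [TopologicalSpace Z'] [MeasurableSpace Z]
    [MeasurableSpace Z'] {c' : Cfg Z' ι lam r} {c : Cfg Z ι lam r'} {i : CL c.m.V c'.m.V}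
    {x : Z'} {y : Z} (h : LitAt c' c i x y) (hi : Emb c.m.J c'.m.J i) (hJ : Skw c.m.J) {ξ : c.m.A}
    (hξ : ξ ∈ c.m.gS y) : cA i ξ ∈ c'.m.gS x :=
  mem_g (T := cjL i (opL ξ)) (Emb.cj_skw i (g_skw hξ)) (by rw [h.p, cj_mul hi.iso, g_p hξ]) 
    (hi.cj_J hJ (g_J hξ)) (fun b => by rw [h.ρ, cj_mul hi.iso, cj_mul hi.iso, g_ρ hξ])
    fun s => by
      rw [h.j, ContinuousLinearMap.comp_apply, cj_mul hi.iso, cj_mul hi.iso, g_j hξ]

variable {F : Fr I M ι} {c' : Cfg M ι lam r'} {c'' : Cfg M ι lam r''} {g : M → CL c'.m.V c''.m.V}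
  {ξ : Circle} (hJ : c''.m.J * c''.m.J = -1) (hi : Iso0 I c'.m c''.m univ g)
  (hp : Par0 F c'.W c''.W univ g) (hΦ : ∀ x, c''.Φ x = cs c''.m.J ξ (g x (c'.Φ x)))
include hJ hi hp hΦ

omit hJ hΦ in
theorem dA_post {c : Cfg M ι lam r} {u : M → CL c.m.V c'.m.V} {O : Set M}
    (h : Iso0 I c.m c'.m O u) {x : M} (hx : x ∈ O) (a : ι) :
    dA F c c'' (fun x => g x ∘L u x) a x = g x ∘L dA F c c' u a x ∘L ad (g x) := by
  rw [dA_comp h (hi.mono (subset_univ _)) hx, dA, show cov F c' c'' g a x = 0 from hp x trivial a,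
    ContinuousLinearMap.zero_comp, zero_add]

omit hp in
theorem dP_post {c : Cfg M ι lam r} (u : M → CL c.m.V c'.m.V) (ζ : Circle) (x : M) :
    dP c c'' (fun x => g x ∘L u x) (ξ * ζ) x = (csB c''.m.J ξ ∘L g x) (dP c c' u ζ x) := by
  rw [dP_comp hJ hi (mem_univ x), show dP c' c'' g ξ x = 0 from sub_eq_zero.2 (hΦ x).symm, zero_add]
  rfl

/-- exact equivalences preserve closeness, with a constant -/
theorem cl_post (hg : F.Cb g) (k : ℕ) : ∃ A, ∀ (c : Cfg M ι lam r) u ζ O η,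
    Cl F c c' u (fun _ => ζ) O k η →
    Cl F c c'' (fun x => g x ∘L u x) (fun _ => ξ * ζ) O k (A * |η|) := by
  obtain ⟨C', hC'⟩ := Cb_clm adL hg
  obtain ⟨C'', hC''⟩ := Cb_comp (Cb_const (csB c''.m.J ξ)) hg
  obtain ⟨C, hC⟩ := hg
  refine ⟨max (2 ^ k * |C k| * (2 ^ k * |C' k|)) (2 ^ k * |C'' k|), fun c u ζ O η H =>
    ⟨H.op, H.iso.trans (hi.mono (subset_univ _)), fun a => ?_, ?_⟩⟩
  · refine (((Lb.of_CB hC.1 (hC.2 k)).comp H.op ((H.A a).comp H.op (Lb.of_CB hC'.1 (hC'.2 k)))).congr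
      H.op fun x hx => dA_post hi hp H.iso hx a).mono (le_trans (le_of_eq ?_)
        (mul_le_mul_of_nonneg_right (le_max_left _ _) (abs_nonneg η)))
    rw [abs_of_nonneg (by positivity : 0 ≤ 2 ^ k * |η| * |C' k|)]; ring
  · exact (((Lb.of_CB hC''.1 (hC''.2 k)).app H.op H.P).congr H.op fun x _ =>
      dP_post hJ hi hΦ u ζ x).mono (mul_le_mul_of_nonneg_right (le_max_right _ _) (abs_nonneg η))

theorem cl_post0 (hS : Skw c''.m.J) {c : Cfg M ι lam r} {u : M → CL c.m.V c'.m.V} {ζ : Circle}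
    {O : Set M} {η : ℝ} (H : Cl F c c' u (fun _ => ζ) O 0 η) :
    Cl F c c'' (fun x => g x ∘L u x) (fun _ => ξ * ζ) O 0 η := by
  have n := fun x => norm_iso (hi.iso x trivial)
  have n' := fun x => norm_iso (hi.iso x trivial).symm
  have s := fun x => hi.su x trivial
  refine ⟨H.op, H.iso.trans (hi.mono (subset_univ _)), fun a => Lb.congr H.op (fun x hx =>
    ⟨(s x).cc (FSm.cc ((H.A a).sm hx) (s x).ad), ?_⟩) fun x hx => dA_post hi hp H.iso hx a,
    Lb.congr H.op (fun x hx => ⟨(FSm.cc contMDiffAt_const (s x)).clm_apply (H.P.sm hx), ?_⟩)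
      fun x _ => dP_post hJ hi hΦ u ζ x⟩
  · exact ((ContinuousLinearMap.opNorm_comp_le _ _).trans (mul_le_of_le_one_left (norm_nonneg _)
      (n x))).trans (((ContinuousLinearMap.opNorm_comp_le _ _).trans
        (mul_le_of_le_one_right (norm_nonneg _) (n' x))).trans ((H.A a).le hx))
  · rw [ContinuousLinearMap.comp_apply, csB_apply, Mp86.norm_cs hJ hS, Circle.norm_coe, one_mul]
    exact ((ContinuousLinearMap.le_opNorm _ _).trans (mul_le_of_le_one_left (norm_nonneg _)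
      (n x))).trans (H.P.le hx)

end gen

section cyl
variable {E3 : Type} [NormedAddCommGroup E3] [NormedSpace ℝ E3] [FiniteDimensional ℝ E3]
  [MeasurableSpace E3] [BorelSpace E3]
  {H3 : Type} [TopologicalSpace H3] {I3 : ModelWithCorners ℝ E3 H3} [I3.Boundaryless]
  {Y : Type} [TopologicalSpace Y] [ChartedSpace H3 Y] [IsManifold I3 ∞ Y] [T2Space Y]
  [MeasurableSpace Y] [BorelSpace Y] [SecondCountableTopology Y] [CompactSpace Y]
  {D : YD I3 Y κ lam} {β β' : YC Y κ lam}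

/-- **the limit can be replaced by an equivalent one** -/
theorem elim_post {B : Base M (Option κ) lam} {G : Geo I M (Option κ) lam} (K : Nk D B G)
    (hD : D.OK) (hβ : D.Adm β) (hβ' : D.Adm β') {g : Y × ℝ → CL β.m.V β'.m.V} {ξ ζ : Circle}
    (e : EqOn D.B D.Z univ (cy β) (cy β') g ξ) {c : Cfg M (Option κ) lam r}
    (hc : AdmOn (K.pb (noz c)) D.B D.G (univ ×ˢ K.J)) {d : ℝ} {l : Filter ℝ}
    (H : K.ELim d c β ζ l) : K.ELim d c β' (ξ * ζ) l := by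
  obtain ⟨u, S, a, b, f, H⟩ := H
  have hi : Iso0 (IC I3) (cy β).m (cy β').m univ g :=
    .of_mEq isOpen_univ e.m (OK.on hβ.adm.ok _) (OK.on hβ'.adm.ok _)
  have hp : Par0 D.Z (cy β).W (cy β').W univ g :=
    (par0_iff ((IsConn.on hβ'.adm.conn _).proj' hD.B)).2 e.W
  have hg : D.Z.Cb g := cb_of_eq0 (G := D.G) (c := ⟨(cy β).m, (cy β).W, 0, 0⟩)
    (c' := ⟨(cy β').m, (cy β').W, 0, (0 : EuclideanSpace ℂ (Fin 0))⟩)
    ⟨hi, hp, fun _ _ => (map_zero _).symm, rfl⟩ (exists_cbc.1 (exists_cbc_cy hβ)).2.2.2.1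
    (exists_cbc.1 (exists_cbc_cy hβ')).2.2.2.1
  have k : ∀ {S : Set ℝ}, S ⊆ K.J → AdmOn (K.pb (noz c)) D.B D.G (univ ×ˢ S) := fun h =>
    hc.mono (prod_mono_right h)
  have k1 := (cl_post0 hβ'.adm.ok.Jsq hi hp (fun x => e.Φ x trivial) hβ'.adm.ok.Jsk
    (cl_of_cls (c := K.pb (noz c)) hβ (k b) ⟨f.op, f.m, f.A, f.P⟩)).cls hβ' f.op (k b)
  refine ⟨_, S, a, b, ⟨k1.op, k1.m, k1.A, k1.P⟩, fun j => ?_⟩
  obtain ⟨A, hA⟩ := cl_post (r := 0) hβ'.adm.ok.Jsq hi hp (fun x => e.Φ x trivial) hg j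
  obtain ⟨C, hC⟩ := H j
  refine ⟨A * |C|, fun s hs => ?_⟩
  have f := hC s hs
  have k2 := (hA _ _ _ _ _ (cl_of_cls (c := K.pb (noz c)) hβ (k (hs.trans b))
    ⟨f.op, f.m, f.A, f.P⟩)).cls hβ' f.op (k (hs.trans b))
  rw [abs_mul, abs_exp, ← mul_assoc] at k2
  exact ⟨k2.op, k2.m, k2.A, k2.P⟩

theorem elim_mono {B : Base M (Option κ) lam} {G : Geo I M (Option κ) lam} {K : Nk D B G}
    {c : Cfg M (Option κ) lam r} {d d' : ℝ} {ζ : Circle} {l : Filter ℝ} (h : d' ≤ d)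
    (H : K.ELim d c β ζ l) : K.ELim d' c β ζ l := by
  obtain ⟨u, S, a, b, f, H⟩ := H
  refine ⟨u, S, a, b, f, fun k => let ⟨C, hC⟩ := H k; ⟨|C|, fun s hs => ?_⟩⟩
  have e : C * exp (-d * |s|) ≤ |C| * exp (-d' * |s|) :=
    mul_le_mul (le_abs_self C) (exp_le_exp.2 (by nlinarith [abs_nonneg s])) (exp_pos _).le
      (abs_nonneg C)
  have k := hC s hs
  exact ⟨k.op, k.m, fun a w hw x hx => (k.A a w hw x hx).trans e,
    fun w hw x hx => (k.P w hw x hx).trans e⟩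

theorem exists_frz0 (hD : D.OK) {γ : Cfg (Y × ℝ) (Option κ) lam 0} (h1 : γ.Adm D.B D.G) :
    ∃ (W : Option κ → Y → En (Fin γ.m.N)) (u : Y × ℝ → En (Fin γ.m.N)),
      D.Adm ⟨Nd18.pbM (fun y => (y, 0)) γ.m, W, fun y => γ.Φ (y, 0), 0⟩ ∧
      Iso0 (IC I3) γ.m (sqM (fun _ => 0) γ.m) univ u := by
  have cy' : Tmp64.Cy D.F D.B D.G := ⟨rfl, rfl, fun _ _ _ _ _ _ _ => rfl, fun _ _ _ => rfl,
    fun _ => rfl, fun a _ _ _ => by cases a <;> rfl⟩
  obtain ⟨u, -, h2, -⟩ := cy'.exists_tmp hD.B h1 0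
  have k := cy'.adm_sq (θ := fun _ => 0) contDiff_const h1
  have e : (fun a (x : Y × ℝ) => (frz 0 γ).W a (x.1, 0)) = (frz 0 γ).W :=
    funext₂ fun a x => (Tmp64.inv_frz 0 γ).Wi a x.1 0 x.2
  exact ⟨fun a y => (frz 0 γ).W a (y, 0), u, ⟨⟨k.ok, (e.symm ▸ k.conn :), k.sm, k.pos, .inl rfl⟩,
    fun y => Tmp64.frz_none 0 _⟩, h2.iso⟩

/-- a module on a half cylinder is `t`-invariant -/
theorem exists_frz (hD : D.OK) {σ R : ℝ} (hσ : σ * σ = 1) {c : Cfg (Y × ℝ) (Option κ) lam 0}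
    (hc : AdmOn c D.B D.G {z | R < σ * z.2}) : ∃ (β : YC Y κ lam) (u : Y × ℝ → CL c.m.V β.m.V),
      D.Adm β ∧ (∀ y, β.Φ y = 0) ∧ Iso0 (IC I3) c.m (cy β).m {z | R + 2 < σ * z.2} u := by
  have cy' : Tmp64.Cy D.F D.B D.G := ⟨rfl, rfl, fun _ _ _ _ _ _ _ => rfl, fun _ _ _ => rfl,
    fun _ => rfl, fun a _ _ _ => by cases a <;> rfl⟩
  have st := smoothTransition.contDiff (n := ⊤)
  obtain ⟨θ, hθ, t1, t2⟩ : ∃ θ : ℝ → ℝ, ContDiff ℝ ∞ θ ∧ (∀ s, R < σ * θ s) ∧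
      ∀ s, R + 2 < σ * s → θ s = s := by
    refine ⟨fun s => σ * (R + 1 + (σ * s - (R + 1)) * smoothTransition (σ * s - (R + 1))),
      by fun_prop, fun s => ?_, fun s hs => ?_⟩
    · rw [← mul_assoc, hσ, one_mul]
      rcases le_total (σ * s - (R + 1)) 0 with k | k
      · rw [smoothTransition.zero_of_nonpos k]; linarith
      · linarith [mul_nonneg k (smoothTransition.nonneg (σ * s - (R + 1)))]
    · simp only [smoothTransition.one_of_one_le (show 1 ≤ σ * s - (R + 1) by linarith), mul_one,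
        add_sub_cancel, ← mul_assoc, hσ, one_mul]
  have h0 : AdmOn (⟨c.m, c.W, 0, 0⟩ : Cfg _ _ lam 0) D.B D.G {z | R < σ * z.2} :=
    ⟨hc.ok, hc.conn, fun _ _ => contMDiffAt_const, fun _ _ => map_zero _, .inl rfl⟩
  obtain ⟨W, u, k1, k⟩ := exists_frz0 hD
    (admOn_univ.1 ((cy'.admOn_sq hθ h0).mono (O' := univ) fun z _ => t1 z.2))
  have e' : ∀ z ∈ {z : Y × ℝ | R + 2 < σ * z.2}, Tmp64.sq θ z = z := fun z hz =>
    Prod.ext rfl (t2 _ hz)
  refine ⟨⟨Nd18.pbM (fun y => (y, 0)) (sqM θ c.m), W, fun _ => 0, 0⟩, u, k1, fun _ => rfl,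
    fun z _ => k.su z trivial, fun z hz => ?_, fun z _ => ?_, fun z hz b => ?_, fun z hz s => ?_⟩
  · rw [← congrArg c.m.p (e' z hz)]; exact k.iso z trivial
  · exact k.J z trivial
  · rw [← congrArg (c.m.ρ b) (e' z hz)]; exact k.ρ z trivial b
  · rw [← congrArg c.m.j (e' z hz)]; exact k.j z trivial s

theorem Fo.smul {h : κ → Y → β.m.A} (H : Fo D β h) (s : ℝ) : Fo D β (s • h) :=
  ⟨fun k y => Wz78.SA.smul (contMDiffAt_const (c := s)) (H.sm k y),
    fun k y => Submodule.smul_mem _ s (H.mem k y),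
    fun k y => by simp only [Pi.smul_apply, smul_comm _ s, ← Finset.smul_sum, H.P]⟩

theorem fo_zero : Fo D β 0 := ⟨fun _ => contMDiff_const, fun _ _ => zero_mem _, by simp⟩

theorem adm_mv (hβ : D.Adm β) {h : κ → Y → β.m.A} (H : Fo D β h) (s : ℝ) :
    D.Adm (bh β (s • h) 0) := Rd78.adm_bh hβ (Fo.smul H s) ⟨contMDiff_const, fun _ => map_zero _⟩

end cyl

section ends
variable {𝔉 : Fam I M (Option κ) lam T} {δ R d : ℝ} (X : Ends 𝔉 δ)

theorem off_act {a : X.A} (h : ¬X.Act a) {x : M} (hx : x ∈ (X.P a).U X.R) : x ∉ 𝔉.Om := fun k => by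
  have H := X.okP a
  have := H.con
  have c : IsPreconnected {z : (X.P a).Y.M × ℝ | X.R < (X.P a).sg * z.2} := by
    have : {z : (X.P a).Y.M × ℝ | X.R < (X.P a).sg * z.2} =
        (fun z : _ × ℝ => (z.1, (X.P a).sg * z.2)) '' univ ×ˢ Ioi X.R := by
      ext z
      exact ⟨fun hz => ⟨(z.1, (X.P a).sg * z.2), ⟨trivial, hz⟩, by simp [sg_sq]⟩,
        fun ⟨w, hw, e⟩ => by rw [← e]; simpa [sg_sq] using hw.2⟩
    exact this ▸ (isPreconnected_univ.prod isPreconnected_Ioi).image _ (by fun_prop)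
  refine h (IsPreconnected.subset_isClopen ?_ X.ok.Om ⟨x, hx, k⟩)
  rw [U_eq H le_rfl]
  exact c.image _ ((X.P a).K.ψ.continuousOn.mono fun z hz => mem_src H le_rfl hz)

/-- decay is only needed on the active ends -/
theorem nice_act (hd : δ < d) (hR : X.R ≤ R) {O : Set M} (hO : IsClopen O) (hs : O ⊆ 𝔉.Om)
    {f : M → N} (hf : Sm I f) {g : ∀ a, (X.P a).Y.M × ℝ → N}
    (e : ∀ a, X.Act a → ∀ z, R < (X.P a).sg * z.2 → f ((X.P a).K.ψ z) = g a z)
    (h : ∀ a, X.Act a → ∀ w, ∃ C, ∀ z, R < (X.P a).sg * z.2 →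
      ‖(X.P a).D.Z.Dw w (g a) z‖ ≤ C * exp (-d * ((X.P a).sg * z.2))) :
    Nice 𝔉.F0.toPre (O.indicator f) := by
  classical
  rw [← inter_eq_left.2 hs, ← indicator_indicator]
  refine nice_ind hO (nice_of_dec X hd hR (sm_ind X.ok.Om fun x _ => hf x)
    (g := fun a => if X.Act a then g a else fun _ => 0) (fun a z hz => ?_) fun a w => ?_)
  · have k := U_mono _ hR (mem_U (X.okP a) hR hz)
    split_ifs with ha
    · rw [indicator_of_mem (ha k), e a ha z hz]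
    · exact indicator_of_notMem (off_act X ha k) _
  · split_ifs with ha
    · exact h a ha w
    · exact ⟨0, fun z _ => (CB_const (F := (X.P a).D.Z.toPre) w.length (0 : N) w le_rfl z).trans
        (by simp)⟩

/-- an invariant function, cut off below the height `R` -/
theorem exists_push (hR : X.R ≤ R) (a : X.A) {f : (X.P a).Y.M × ℝ → N} (hf : (X.P a).D.Z.Cb f) :
    ∃ g : M → N, 𝔉.F0.Cb g ∧ (∀ x ∉ (X.P a).U R, g x = 0) ∧ ∀ z, R < (X.P a).sg * z.2 →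
      g ((X.P a).K.ψ z) = smoothTransition ((X.P a).sg * z.2 - R) • f z := by
  have H := X.okP a
  obtain ⟨C, hC⟩ := bd_st
  have b : BD (fun s => smoothTransition ((X.P a).sg * s - R)) C := by
    rcases sg_cases (X.P a) with k | k <;> simp only [k.2, one_mul, neg_one_mul]
    exacts [hC.shift (-R), (hC.shift (-R)).neg]
  obtain ⟨C', hC'⟩ := Cb_smul ⟨C, b.cyl (X.P a).D.F.toPre⟩ hf
  have z0 : ∀ z : _ × ℝ, ¬R < (X.P a).sg * z.2 →
      smoothTransition ((X.P a).sg * z.2 - R) • f z = 0 := fun z hz => by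
    rw [smoothTransition.zero_of_nonpos (by linarith [not_lt.1 hz]), zero_smul]
  refine ⟨_, X.wt.toWtP.Cb.2 ⟨_, (X.P a).K.CBs_push (d := 5) (by norm_num) hC' fun z hz =>
    z0 z fun k => hz (H.inf _ (hR.trans k.le))⟩, fun x hx => ?_, fun z hz => ?_⟩
  · by_cases k : x ∈ (X.P a).K.ψ.target
    · rw [Nk.push, pull_of_mem (φ := (X.P a).K.ψ.symm) k]
      exact z0 _ fun k' => hx ⟨k, (X.P a).K.snd_symm k ▸ k'⟩
    · exact pull_of_notMem (φ := (X.P a).K.ψ.symm) k _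
  · have s := mem_src H hR hz
    rw [Nk.push, pull_of_mem (φ := (X.P a).K.ψ.symm) ((X.P a).K.ψ.map_source s),
      (X.P a).K.ψ.left_inv s]

end ends

end Crest.Agent.X212.Pnt66
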