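import Crest.Agent.X212.Pnt66.Tl

/-! X212/Pnt66/Core (helper66): literal references with moving ends. -/

set_option autoImplicit false
set_option linter.unusedSectionVars false
noncomputable section
open scoped Manifold ContDiff Topology InnerProductSpace
open MeasureTheory Set Function Filter Real

namespace Crest.Agent.X212.Pnt66
open An An.Pre Sob92 Prm93 Mod61 Nd18 Cyf70 Nk89 Pj41 Eqv71 End3 Rdc90
open Grp76 (Nice)
open Tmp64 (AdmOn admOn_univ)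
open Wz78 (pg_of_mem)

variable {E : Type} [NormedAddCommGroup E] [NormedSpace ℝ E] [FiniteDimensional ℝ E]
  [MeasurableSpace E] [BorelSpace E]
  {HM : Type} [TopologicalSpace HM] {I : ModelWithCorners ℝ E HM} [I.Boundaryless]
  {M : Type} [TopologicalSpace M] [ChartedSpace HM M] [IsManifold I ∞ M]
  [MeasurableSpace M] [T2Space M] [BorelSpace M] [SecondCountableTopology M]
  {κ : Type} [Fintype κ] {lam : Type} [Fintype lam]
  {T : Type} [NormedAddCommGroup T] [NormedSpace ℝ T] {r : ℕ}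

theorem eqOn_of_lit {Y : X212.M.Mf 3} [CompactSpace Y.M] {D : YD Y.I Y.M κ lam} (hD : D.OK)
    {γ : YC Y.M κ lam} (hγ : D.Adm γ) {N : ℕ} {J : En (Fin N)} {p : Y.M → En (Fin N)}
    {ρ W : Option κ → Y.M → En (Fin N)} {j : Y.M → CL (Eu lam) (En (Fin N))} {Φ : Y.M → Eu (Fin N)}
    {i : CL γ.m.V (Eu (Fin N))} (hi : Emb γ.m.J J i) {ζ : Circle}
    (h : ∀ y, LitAt (⟨⟨N, J, p, ρ, j⟩, W, Φ, 0⟩ : YC Y.M κ lam) (ph ζ γ) i y y) :
    EqOn D.B D.Z univ (cy γ) (cy ⟨⟨N, J, p, ρ, j⟩, W, Φ, 0⟩) (fun x => i ∘L γ.m.p x.1) ζ := by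
  obtain rfl : p = fun y => cjL i (γ.m.p y) := funext fun y => (h y).p
  obtain rfl : ρ = fun b y => cjL i (γ.m.ρ b y) := funext₂ fun b y => (h y).ρ b
  obtain rfl : j = fun y => cjL i ∘L γ.m.j y := funext fun y => (h y).j
  obtain rfl : W = fun b y => cjL i (γ.W b y) := funext₂ fun b y => (h y).W b
  obtain rfl : Φ = fun y => i (cs γ.m.J ζ (γ.Φ y)) := funext fun y => (h y).Φ
  have k := eqv_stab hγ hD hi ζ
  exact ⟨k.m, k.W, k.Φ, Subsingleton.elim _ _⟩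

theorem dec_clm {ι N N' : Type} [Fintype ι] [NormedAddCommGroup N] [NormedSpace ℝ N]
    [NormedAddCommGroup N'] [NormedSpace ℝ N'] {F : Pre I M ι} {O : Set M} (hO : IsOpen O)
    (L : N →L[ℝ] N') {f : M → N} (hf : ∀ x ∈ O, FSm I f x) {x : M} (hx : x ∈ O) {w : List ι}
    {C e : ℝ} (h : ‖F.Dw w f x‖ ≤ C * e) : ‖F.Dw w (fun x => L (f x)) x‖ ≤ ‖L‖ * C * e := by
  rw [Dw_clm_on hO L w hf x hx, mul_assoc]
  exact (L.le_opNorm _).trans (mul_le_mul_of_nonneg_left h (norm_nonneg _))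

theorem cs_inv {a : Type} [Fintype a] {J : En a} (hJ : J * J = -1) (ζ : Circle) (v w : Eu a) :
    csL J (ζ⁻¹ : Circle) (cs J ζ v - (w + 0)) = v - cs J (ζ⁻¹ : Circle) w := by
  rw [map_sub, add_zero, csL_apply, csL_apply, cs_mul hJ, ← Circle.coe_mul, inv_mul_cancel,
    Circle.coe_one, cs_one]

variable {𝔉 : Fam I M (Option κ) lam T} {δ : ℝ}

theorem W_end' {P : End 𝔉} {ψ : M → ℝ} {R : ℝ} (h𝔉 : 𝔉.OK) (h : P.OK ψ δ R) (o : Ref 𝔉) {t : T}
    (ht : t ∈ 𝔉.Q) {x : M} (hx : x ∈ P.U R) (a : Option κ) :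
    o.W t 0 a x = o.A0 a x + opL (o.b t x a) := by
  simp only [W_apply, Fam.W0, fun b => (h.S t ht x hx a b).1, (h.cf t ht x hx).1,
    (h.cf t ht x hx).2, (o.connA h𝔉.B t).cc.proj a x, Pi.zero_apply, PiLp.zero_apply, map_zero,
    smul_zero, zero_smul, Finset.sum_const_zero, add_zero]
  rfl

variable (X : Ends 𝔉 δ) {t : T} {c : Cfg M (Option κ) lam r} {β : ∀ a, YC (X.P a).Y.M κ lam}
  {η : ∀ a, κ → (X.P a).Y.M → (β a).m.A} {l : X.A → T →L[ℝ] ℝ} {ζ : X.A → Circle} {d R : ℝ}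

/-- the moving part of the base connection -/
theorem exists_b {c' : Cfg M (Option κ) lam 0} {i : ∀ a, CL (β a).m.V c'.m.V} (hR : X.R ≤ R)
    (hβ : ∀ a, (X.P a).D.Adm (β a)) (hη : ∀ a, Fo (X.P a).D (β a) (η a))
    (i1 : ∀ a, Emb (β a).m.J c'.m.J (i a)) (off : ∀ a, ¬X.Act a → l a = 0)
    (lit : ∀ a z, R < (X.P a).sg * z.2 → LitAt c' (ph (ζ a) (β a)) (i a) ((X.P a).K.ψ z) z.1) :
    ∃ b : T →ₗ[ℝ] (M → Fm (Option κ) c'.m.A), SB 𝔉.F0.toPre univ (fun t => b t) ∧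
      (∀ t x, idx (fun a c => 𝔉.B.P a c x) (𝔉.Om.indicator c'.m.pg x) (b t x) = b t x) ∧
      (∀ t x, (∀ a, l a ≠ 0 → x ∉ (X.P a).U R) → b t x = 0) ∧
      ∀ t a z, R + 1 ≤ (X.P a).sg * z.2 → ∀ k, opL (b t ((X.P a).K.ψ z) k) =
        cjL (i a) (opL (Rd78.up (β a) (l a t • η a) z k)) := by
  have H := X.okP
  have sv := fun a => Rd78.sv_up (hη a) (φ := 0) ⟨contMDiff_const, fun _ => map_zero _⟩
  choose g g1 g2 g3 using fun a => exists_push X hR a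
    (f := fun z => (WithLp.toLp 2 fun k => cA (i a) (Rd78.up (β a) (η a) z k) : Fm _ c'.m.A))
    (cb_inv (X.P a).D.F.toPre (f := fun y => (WithLp.toLp 2 fun k =>
      cA (i a) (Rd78.up (β a) (η a) (y, 0) k) : Fm _ c'.m.A)) fun x => Wz78.SA.toLp fun k =>
        ((cA (i a)).contMDiff.comp (Rd78.sm_cp (sv a) k)) x)
  have e0 : ∀ t x, (∑ a, (l a : T →ₗ[ℝ] ℝ).smulRight (g a)) t x = ∑ a, l a t • g a x :=
    fun t x => by simp [Finset.sum_apply]
  have e1 : ∀ t a z, R < (X.P a).sg * z.2 → ∑ a', l a' t • g a' ((X.P a).K.ψ z) =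
      (l a t * smoothTransition ((X.P a).sg * z.2 - R)) •
        WithLp.toLp 2 fun k => cA (i a) (Rd78.up (β a) (η a) z k) := fun t a z hz => by
    rw [Finset.sum_eq_single a (fun a' _ k => ?_) (by simp), g3 a z hz, smul_smul]
    rw [g2 a' _ fun k' => disjoint_left.1 (X.dis k) (U_mono _ hR k')
      (U_mono _ hR (mem_U (H a) hR hz)), smul_zero]
  have e2 : ∀ t x, (∀ a, l a ≠ 0 → x ∉ (X.P a).U R) → ∑ a, l a t • g a x = 0 := fun t x hx =>
    Finset.sum_eq_zero fun a _ => by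
      by_cases k : l a = 0
      · simp [k]
      · rw [g2 a x (hx a k), smul_zero]
  refine ⟨∑ a, (l a : T →ₗ[ℝ] ℝ).smulRight (g a), (SB.sum fun a =>
    (SB.par (l a).contDiff.contDiffOn).smul (.fixed (g1 a))).congr fun t _ => funext (e0 t),
    fun t x => ?_, fun t x hx => (e0 t x).trans (e2 t x hx), fun t a z hz k => ?_⟩
  · rw [e0]
    by_cases hx : ∀ a, l a ≠ 0 → x ∉ (X.P a).U R
    · rw [e2 t x hx, map_zero]
    push Not at hx
    obtain ⟨a, ha, hx⟩ := hx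
    have k := (not_not.1 (mt (off a) ha)) (U_mono _ hR hx)
    rw [U_eq (H a) hR] at hx
    obtain ⟨z, hz, rfl⟩ := hx
    obtain ⟨k1, k2⟩ := Rd78.p1_cy.1 ((sv a).p1 z)
    rw [e1 t a z hz, map_smul, indicator_of_mem k]
    congr 1
    ext1 b
    simp only [idx_apply, pg_of_mem (lit_g (lit a z hz) (i1 a) (hβ a).adm.ok.Jsk (k1 _)),
      (X.P a).K.P _ _ z (mem_src (H a) hR hz), ← map_smul, ← map_sum]
    exact congrArg _ (k2 b)
  · rw [e0, e1 t a z (by linarith), smoothTransition.one_of_one_le (by linarith), mul_one,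
      PiLp.smul_apply, ← map_smul, opL_cA]
    cases k <;> simp [Rd78.up]

set_option maxHeartbeats 800000 in
/-- the literal reference, given trivialisations on all ends -/
theorem core {u : ∀ a, (X.P a).Y.M × ℝ → CL c.m.V (β a).m.V} (ht : t ∈ 𝔉.Q) (hd : δ < d)
    (hc : Adm0 c 𝔉.B (𝔉.G t)) (h0 : ∀ x ∉ 𝔉.Om', c.Φ x = 0) (hR : X.R ≤ R)
    (hβ : ∀ a, (X.P a).D.Adm (β a)) (hη : ∀ a, Fo (X.P a).D (β a) (η a))
    (iu : ∀ a, Iso0 (IC (X.P a).Y.I) (cmM (X.P a).K.ψ c.m) (cy (β a)).m {z | R < (X.P a).sg * z.2} (u a))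
    (off : ∀ a, ¬X.Act a → l a = 0 ∧ ∀ y, (β a).Φ y = 0)
    (dec : ∀ a, X.Act a → ∀ k, ∃ C, ∀ z : (X.P a).Y.M × ℝ, R + 4 < (X.P a).sg * z.2 →
      (X.P a).D.Cls ((X.P a).K.pb c) (bh (β a) (l a t • η a) 0) (u a) (ζ a)
        (Ioo (z.2 - 1) (z.2 + 1)) k (C * exp (-d * ((X.P a).sg * z.2)))) :
    ∃ (o : Ref 𝔉) (y : Pnt o r) (w : M → CL c.m.V o.m.V), X.Lit o (R + 5) ∧ y.t = t ∧
      Iso0 I c.m o.m univ w ∧ EqOn 𝔉.B (𝔉.G t).F 𝔉.Om c y.cfg w 1 ∧
      ((∀ a y, (β a).Φ y = 0) → o.Φ0 = 0) ∧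
      (∀ t' x, (∀ a, l a ≠ 0 → x ∉ (X.P a).U (R + 4)) → o.b t' x = 0) ∧
      ∀ a, ∃ v : (X.P a).Y.M × ℝ → CL (β a).m.V o.m.V, ∀ t' ∈ 𝔉.Q,
        EqOn (X.P a).D.B (X.P a).D.Z univ (cy (bh (β a) (l a t' • η a) 0))
          (cy ((X.P a).sl o (R + 5 + 1) t')) v (ζ a)⁻¹ := by
  have h := X.ok
  have H := X.okP
  have hR4 : X.R ≤ R + 4 := by linarith
  have hR5 : X.R ≤ R + 5 := by linarith
  have adm := fun a => admOn_end h (H a) ht hc hR
  have hγ := fun a s => adm_mv (hβ a) (hη a) s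
  have mid : ∀ {a} (z : (X.P a).Y.M × ℝ), z ∈ univ ×ˢ Ioo (z.2 - 1) (z.2 + 1) := fun z =>
    ⟨trivial, by linarith, by linarith⟩
  have el := fun a => end_lit (H a) hR (c := c) (adm_ph (hβ a) (ζ a)⁻¹) (iu a)
  choose hf f1 f2 f3 using fun a => exists_height (K := fun _ : Unit => (X.P a).K)
    (σ := fun _ => (X.P a).sg) (R := R) fun _ s hs => mem_J (H a) hR hs
  obtain ⟨c', a, k1, k2, k3⟩ := exists_lits h.G0.P
    (c := ⟨c.m, Spn45.can c.m 𝔉.G0, 0, 0⟩)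
    ⟨hc.ok, Spn45.isConn_can h.B h.G0 hc.ok, contMDiff_const, fun _ => map_zero _, .inl rfl⟩
    (fun a => (el a).1) (fun a => (el a).2) f1
    (fun a x hx => (f2 a x hx).elim fun _ k => mem_U' (H a) hR k)
    fun a b k => (X.dis k).mono (U_mono _ hR) (U_mono _ hR)
  choose i i1 i2 using k3
  have lit : ∀ e (z : (X.P e).Y.M × ℝ), R + 4 < (X.P e).sg * z.2 →
      a ((X.P e).K.ψ z) = i e ∘L u e z ∧
        LitAt c' (ph (ζ e)⁻¹ (β e)) (i e) ((X.P e).K.ψ z) z.1 := fun e z hz => by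
    have s := mem_src (H e) hR4 hz
    obtain ⟨j1, j⟩ := i2 e _ (f3 e () _ (by rw [(X.P e).K.tm_ψ z s]; exact hz.le))
    rw [(X.P e).K.ψ.left_inv s] at j1
    refine ⟨j1, ?_⟩
    rw [show z.1 = ((X.P e).K.ψ.symm ((X.P e).K.ψ z)).1 by rw [(X.P e).K.ψ.left_inv s]]
    exact ⟨j.p, j.ρ, j.j, j.W, j.Φ⟩
  have cb := fun e => exists_cbc.1 (exists_cbc_cy (adm_stab (adm_ph (hβ e) (ζ e)⁻¹) (i1 e)))
  obtain ⟨b, b1, b2, b3, b4⟩ := exists_b X (l := l) hR4 hβ hη i1 (fun a k => (off a k).1)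
    fun e z hz => (lit e z hz).2
  obtain ⟨Φ, p1, p2, p3, p4⟩ : ∃ Φ : M → c'.m.V, 𝔉.F0.Cb Φ ∧
      (∀ x, 𝔉.Om'.indicator (c'.m.pp 𝔉.B) x (Φ x) = Φ x) ∧ ((∀ a y, (β a).Φ y = 0) → Φ = 0) ∧
      ∀ e z, R + 4 < (X.P e).sg * z.2 →
        Φ ((X.P e).K.ψ z) = i e (cs (β e).m.J ((ζ e)⁻¹ : Circle) ((β e).Φ z.1)) := by
    by_cases k : ∀ a y, (β a).Φ y = 0
    · exact ⟨0, Cb_const 0, fun _ => map_zero _, fun _ => rfl, fun e z _ => by
        rw [k, cs_zero, map_zero]; rfl⟩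
    refine ⟨𝔉.Om'.indicator c'.Φ, Cb_ind h.Om' (cb_of_lit X hR4 k1.sm
      (fun e z hz => (lit e z hz).2.Φ) fun e => (cb e).2.2.2.2), fun x => ?_, fun k' => (k k').elim,
      fun e z hz => ?_⟩
    · by_cases hx : x ∈ 𝔉.Om'
      · rw [indicator_of_mem hx, indicator_of_mem hx, k1.pos]
      · rw [indicator_of_notMem hx c'.Φ, map_zero]
    by_cases hx : (X.P e).K.ψ z ∈ 𝔉.Om'
    · exact (indicator_of_mem hx _).trans (lit e z hz).2.Φ
    have : (β e).Φ z.1 = 0 := by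
      by_cases he : X.Act e
      · obtain ⟨C, hC⟩ := dec e he 0
        exact (add_zero _).symm.trans (lim_zero h (H e) hR4 h0 (X.δ0.trans hd)
          (fun z hz => (hC z hz).P [] le_rfl z (mid z)) hz hx)
      · exact (off e he).2 _
    rw [indicator_of_notMem hx, this, cs_zero, map_zero]
  let o : Ref 𝔉 :=
    { m := c'.m
      A0 := c'.W
      Φ0 := Φ
      ok := k1.ok
      conn := k1.conn
      cp := cb_of_lit X hR4 k1.ok.sp (fun e z hz => (lit e z hz).2.p) fun e => (cb e).1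
      cρ b := cb_of_lit X hR4 (k1.ok.sρ b) (fun e z hz => (lit e z hz).2.ρ b) fun e => (cb e).2.1 b
      cj := cb_of_lit X hR4 k1.ok.sj (fun e z hz => (lit e z hz).2.j) fun e => (cb e).2.2.1
      cA b := cb_of_lit X hR4 (fun x => k1.conn.cc.sm b x) (fun e z hz => (lit e z hz).2.W b)
        fun e => (cb e).2.2.2.1 b
      cΦ := p1
      pos := p2
      b := b
      sb := b1
      bP := b2 }
  have h4 : ∀ {e} {z : (X.P e).Y.M × ℝ}, R + 5 < (X.P e).sg * z.2 → R + 4 < (X.P e).sg * z.2 :=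
    fun hz => by linarith
  have hi : ∀ {e} {z : (X.P e).Y.M × ℝ}, R + 5 < (X.P e).sg * z.2 → R < (X.P e).sg * z.2 :=
    fun hz => by linarith
  have oW : ∀ e, ∀ t' ∈ 𝔉.Q, ∀ z : (X.P e).Y.M × ℝ, R + 5 < (X.P e).sg * z.2 → ∀ k,
      o.W t' 0 k ((X.P e).K.ψ z) = cjL (i e) ((bh (β e) (l e t' • η e) 0).W k z.1) :=
    fun e t' ht' z hz k => (W_end' h (H e) o ht' (U_mono _ hR5 (mem_U (H e) hR5 hz)) k).trans
      ((congrArg₂ (· + ·) ((lit e z (h4 hz)).2.W k) (b4 t' e z (by linarith) k)).trans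
        (map_add _ _ _).symm)
  have sl : ∀ e, ∀ t' ∈ 𝔉.Q, ∀ s, R + 5 < s → ∀ y, LitAt ((X.P e).sl o s t')
      (ph (ζ e)⁻¹ (bh (β e) (l e t' • η e) 0)) (i e) y y := fun e t' ht' s hs y =>
    have hz : R + 5 < (X.P e).sg * ((y, (X.P e).sg * s) : (X.P e).Y.M × ℝ).2 := by rwa [sg_sq]
    have k := (lit e _ (h4 hz)).2
    ⟨k.p, k.ρ, k.j, oW e t' ht' _ hz, (p4 e _ (h4 hz)).trans (congrArg
      (fun v => i e (cs (β e).m.J ((ζ e)⁻¹ : Circle) v)) (add_zero ((β e).Φ y)).symm)⟩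
  have C' : o.m.IsConn 𝔉.B (𝔉.G t) (o.W t 0) := isConn_W h ht contMDiff_const fun x a => zero_mem _
  have sa : Sm I a := fun x => k2.su x trivial
  have nA : Nice 𝔉.F0.toPre (gA o t c a) := by
    refine .fm fun k => ?_
    rw [show (fun x => gA o t c a x k) = 𝔉.Om.indicator fun x => hsL (-((𝔉.G t).F.D k a x +
      o.W t 0 k x ∘L a x - a x ∘L c.W k x) ∘L trn (a x)) from funext fun x => by
        by_cases hx : x ∈ 𝔉.Om <;> simp [gA, hx]]
    refine nice_act X hd hR5 h.Om subset_rfl (fun x => ?_) (g := fun e z => (-(hsL ∘L cjL (i e)))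
      ((X.P e).D.dA ((X.P e).K.pb c) (bh (β e) (l e t • η e) 0) (u e) k z))
      (fun e _ z hz => ?_) fun e he w => ?_
    · have := FSm.cc (((dv_smoothAt ((𝔉.G t).F.sm k x) (sa x)).add
        (FSm.cc (C'.cc.sm k x) (sa x))).sub (FSm.cc (sa x) (hc.conn.cc.sm k x))) (FSm.ad (sa x))
      simp only [ad_trn] at this
      exact hsL.contMDiff.contMDiffAt.comp x this.neg
    · have e1 : (𝔉.G t).F.D k a ((X.P e).K.ψ z) = i e ∘L (X.P e).D.Z.D k (u e) z := by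
        refine ((gRel h (H e) ht).fr.D (U_mono _ hR5 (mem_U (H e) hR5 hz)) k (u := a) (u' := a)
          (.of_forall fun _ => rfl)).trans ?_
        refine (Dw_end (H e) hR4 (fun z hz => (lit e z hz).1) [k] (h4 hz)).trans ?_
        exact dv_clm (ContinuousLinearMap.compL ℝ c.m.V _ _ (i e)) ((iu e).su z (hi hz)).md
      show hsL (-(((𝔉.G t).F.D k a _ + o.W t 0 k _ ∘L a _ - a _ ∘L c.W k _) ∘L trn (a _))) =
        -hsL (cjL (i e) _)
      rw [map_neg, e1, oW e t ht z hz, (lit e z (h4 hz)).1]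
      exact congrArg (fun s => -hsL s) (dA_emb (i1 e).iso _ _ _ _)
    · obtain ⟨C, hC⟩ := dec e he w.length
      refine ⟨_, fun z hz => dec_clm (isOpen_hi _ R) _ (fun z hz => ?_) (hi hz)
        ((hC z (h4 hz)).A k w le_rfl z (mid z))⟩
      have su := (iu e).su z hz
      have := FSm.cc (((dv_smoothAt ((X.P e).D.Z.sm k z) su).add (FSm.cc
        ((hγ e (l e t)).adm.conn.cc.sm k z) su)).sub (FSm.cc su ((adm e).conn.sm k z hz)))
        (FSm.ad su)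
      exact this.congr_of_eventuallyEq (.of_forall fun y => congrArg (_ ∘L ·) (ad_trn _).symm)
  have nP : Nice 𝔉.F0.toPre (gP o c a 1) := by
    rw [show gP o c a 1 = 𝔉.Om'.indicator fun x => a x (c.Φ x) - Φ x from funext fun x => by
      by_cases hx : x ∈ 𝔉.Om'
      · simp [gP, o, hx]
      · simp [gP, o, hx, ind_off (p2 x) hx]]
    refine nice_act X hd hR5 h.Om' h.sub ((sa.clm_apply hc.sm).sub p1.choose_spec.1)
      (g := fun e z => (i e ∘L csL (β e).m.J ((ζ e)⁻¹ : Circle))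
        (YD.dP ((X.P e).K.pb c) (bh (β e) (l e t • η e) 0) (u e) (ζ e) z))
      (fun e _ z hz => ?_) fun e he w => ?_
    · rw [(lit e z (h4 hz)).1, p4 e z (h4 hz)]
      exact ((i e).map_sub _ _).symm.trans
        (congrArg (i e) (cs_inv (J := (β e).m.J) (hβ e).adm.ok.Jsq _ _ _).symm)
    · obtain ⟨C, hC⟩ := dec e he w.length
      exact ⟨_, fun z hz => dec_clm (isOpen_hi _ R) _ (fun z hz =>
        ((csL (β e).m.J (ζ e)).contMDiff.contMDiffAt.comp z (((iu e).su z hz).clm_apply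
          ((adm e).sm z hz))).sub ((hγ e (l e t)).adm.sm z)) (hi hz)
        ((hC z (h4 hz)).P w le_rfl z (mid z))⟩
  obtain ⟨y, y1, y2, -⟩ := pt o h r t c a 1 ht hc (fun x hx => h0 x hx.2)
    ((k2.mono (subset_univ _)).mEq (OK.on hc.ok _) (OK.on k1.ok _)) nA nP
  refine ⟨o, y, a, ⟨hR5, fun e => ⟨fun t' ht' s hs => ?_, fun t' ht' z => ?_⟩⟩, y1, k2, y2, p3, b3,
    fun e => ⟨fun x => i e ∘L (β e).m.p x.1, fun t' ht' =>
      eqOn_of_lit (H e).D (hγ e _) (i1 e) (sl e t' ht' _ (lt_add_one _))⟩⟩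
  · have k := sl e t' ht' s hs
    have k' := sl e t' ht' (R + 5 + 1) (by linarith)
    exact cfg_ext (funext fun y => (k y).p.trans (k' y).p.symm)
      (funext₂ fun b y => ((k y).ρ b).trans ((k' y).ρ b).symm)
      (funext fun y => (k y).j.trans (k' y).j.symm)
      (funext₂ fun b y => ((k y).W b).trans ((k' y).W b).symm)
      (funext fun y => (k y).Φ.trans (k' y).Φ.symm)
  · refine (oW e t' ht' _ (by rw [sg_sq]; linarith) none).trans ?_
    exact (congrArg _ ((hγ e _).tmp _)).trans (map_zero _)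

/-- **P-PNT**: a configuration which converges exponentially on the active ends is a point of a
literal reference whose limits move along the forms `η a` -/
theorem pnt (ht : t ∈ 𝔉.Q) (hc : Adm0 c 𝔉.B (𝔉.G t)) (h0 : ∀ x ∉ 𝔉.Om', c.Φ x = 0)
    (hβ : ∀ a, X.Act a → (X.P a).D.Adm (β a) ∧ Fo (X.P a).D (β a) (η a) ∧
      ∃ d > δ, (X.P a).K.ELim d c (bh (β a) (l a t • η a) 0) (ζ a) (X.P a).l) :
    ∃ (o : Ref 𝔉) (R : ℝ) (y : Pnt o r) (w : M → CL c.m.V o.m.V), X.Lit o R ∧ y.t = t ∧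
      Iso0 I c.m o.m univ w ∧ EqOn 𝔉.B (𝔉.G t).F 𝔉.Om c y.cfg w 1 ∧
      ((∀ a, X.Act a → ∀ y, (β a).Φ y = 0) → o.Φ0 = 0) ∧
      (∀ t' x, (∀ a, X.Act a → l a ≠ 0 → x ∉ (X.P a).U X.R) → o.b t' x = 0) ∧
      ∀ a, X.Act a → ∃ v : (X.P a).Y.M × ℝ → CL (β a).m.V o.m.V, ∀ t' ∈ 𝔉.Q,
        EqOn (X.P a).D.B (X.P a).D.Z univ (cy (bh (β a) (l a t' • η a) 0))
          (cy ((X.P a).sl o (R + 1) t')) v (ζ a)⁻¹ := by
  classical
  have h := X.ok
  have H := X.okP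
  obtain ⟨d, hd, hl⟩ : ∃ d > δ, ∀ a, X.Act a →
      (X.P a).K.ELim d c (bh (β a) (l a t • η a) 0) (ζ a) (X.P a).l := by
    refine (Eventually.and self_mem_nhdsWithin (eventually_all.2 fun a => ?_) :
      ∀ᶠ d in 𝓝[>] δ, _).exists
    by_cases ha : X.Act a
    · obtain ⟨d, k1, k2⟩ := (hβ a ha).2.2
      exact Eventually.mono (Ioc_mem_nhdsGT k1) fun d' hd' _ => elim_mono hd'.2 k2
    · exact .of_forall fun _ k => (ha k).elim
  have key : ∀ a, ∃ (P : Σ γ : YC (X.P a).Y.M κ lam, κ → (X.P a).Y.M → γ.m.A)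
      (u : (X.P a).Y.M × ℝ → CL c.m.V P.1.m.V), (X.P a).D.Adm P.1 ∧ Fo (X.P a).D P.1 P.2 ∧
      (X.Act a → P = ⟨β a, η a⟩) ∧ (¬X.Act a → ∀ y, P.1.Φ y = 0) ∧ ∀ᶠ R in atTop,
      Iso0 (IC (X.P a).Y.I) (cmM (X.P a).K.ψ c.m) (cy P.1).m {z | R < (X.P a).sg * z.2} u ∧
      (X.Act a → ∀ k, ∃ C, ∀ z : (X.P a).Y.M × ℝ, R + 4 < (X.P a).sg * z.2 →
        (X.P a).D.Cls ((X.P a).K.pb c) (bh P.1 (l a t • P.2) 0) u (ζ a)
          (Ioo (z.2 - 1) (z.2 + 1)) k (C * exp (-d * ((X.P a).sg * z.2)))) := fun a => by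
    by_cases ha : X.Act a
    · obtain ⟨k1, k2, -⟩ := hβ a ha
      obtain ⟨u, S, hS, -, h1, h2⟩ := hl a ha
      refine ⟨⟨β a, η a⟩, u, k1, k2, fun _ => rfl, fun k => (k ha).elim, ?_⟩
      have : ∀ᶠ R in atTop, ∀ s, R ≤ (X.P a).sg * s → s ∈ S := by
        rcases sg_cases (X.P a) with ⟨k1, k2⟩ | ⟨k1, k2⟩
        · obtain ⟨b, hb⟩ := mem_atTop_sets.1 (k1 ▸ hS)
          exact (eventually_ge_atTop b).mono fun R h t ht => hb t (by rw [k2] at ht; linarith)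
        · obtain ⟨b, hb⟩ := mem_atBot_sets.1 (k1 ▸ hS)
          exact (eventually_ge_atTop (-b)).mono fun R h t ht => hb t (by rw [k2] at ht; linarith)
      filter_upwards [this, eventually_ge_atTop X.R] with R hRS hR
      have s : {z : (X.P a).Y.M × ℝ | R < (X.P a).sg * z.2} ⊆ univ ×ˢ S := fun z hz =>
        ⟨trivial, hRS _ (le_of_lt hz)⟩
      have k := h1.m
      refine ⟨.of_mEq (isOpen_hi _ R) ⟨k.su.mono s, fun x hx => k.uu x (s hx),
        fun x hx => k.uu' x (s hx), fun x hx => k.J x (s hx), fun x hx => k.ρ x (s hx),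
        fun x hx => k.j x (s hx)⟩ (admOn_end h (H a) ht hc hR).ok (OK.on k1.adm.ok _),
        fun _ k => (h2 k).imp fun C hC z hz => ?_⟩
      have h3 := X.R0
      have : |z.2| = (X.P a).sg * z.2 := by
        rcases sg_cases (X.P a) with k | k <;> rw [k.2] at hz ⊢
        · rw [one_mul, abs_of_pos (by linarith)]
        · rw [neg_one_mul, abs_of_neg (by linarith)]
      refine this ▸ hC z.2 fun s hs => hRS s ?_
      rcases sg_cases (X.P a) with k | k <;> rw [k.2] at hz ⊢ <;> linarith [hs.1, hs.2]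
    · obtain ⟨γ, u, k1, k2, k3⟩ := exists_frz (H a).D (by simpa using sg_sq (X.P a) 1)
        (admOn_end h (H a) ht hc le_rfl)
      exact ⟨⟨γ, 0⟩, u, k1, fo_zero, fun k => (ha k).elim, fun _ => k2,
        (eventually_ge_atTop (X.R + 2)).mono fun R hR =>
          ⟨k3.mono fun z hz => hR.trans_lt hz, fun k => (ha k).elim⟩⟩
  choose P u k1 k2 k3 k4 k5 using key
  obtain ⟨R, hR, k6⟩ := ((eventually_ge_atTop X.R).and (eventually_all.2 k5)).exists
  obtain ⟨o, y, w, j1, j2, j3, j4, j5, j6, j7⟩ := core X (β := fun a => (P a).1)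
    (η := fun a => (P a).2) (l := fun a => if X.Act a then l a else 0) (ζ := ζ) ht hd hc h0 hR k1 k2
    (fun a => (k6 a).1) (fun a ha => ⟨if_neg ha, k4 a ha⟩) fun a ha => by
      rw [if_pos ha]; exact (k6 a).2 ha
  refine ⟨o, _, y, w, j1, j2, j3, j4, fun k => j5 fun a y => ?_, fun t' x k => j6 t' x fun a ha k' =>
    ?_, fun a ha => ?_⟩
  · by_cases ha : X.Act a
    · have := k a ha y
      rwa [show β a = (P a).1 from (congrArg Sigma.fst (k3 a ha)).symm] at this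
    · exact k4 a ha y
  · by_cases hb : X.Act a
    · exact k a hb (by rwa [if_pos hb] at ha) (U_mono _ (by linarith) k')
    · exact ha (if_neg hb)
  · have := j7 a
    rwa [if_pos ha, k3 a ha] at this

end Crest.Agent.X212.Pnt66
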